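import Mathlib

set_option autoImplicit false

/-!
[CHAIN]: from a weight `μ0` given by the pigeonhole to the wanted weight `lam`:
first a product with a highest weight vector (Cartan), then Pieri steps.
Rows are `0, ..., n + 2`; the rows `1, ..., H` are heavy.
-/

namespace Vale.Agent.P181.Z.H699

open Finset

/-- cost in row `r` of the Pieri steps `≤ i` -/
def cc (cp k : ℕ → ℕ) (i r : ℕ) : ℕ := ∑ j ∈ Finset.Ico r (i + 1), cp j * k j

lemma cc_succ (cp k : ℕ → ℕ) {i r : ℕ} (h : r ≤ i + 1) :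
    cc cp k (i + 1) r = cc cp k i r + cp (i + 1) * k (i + 1) := by
  unfold cc
  exact Finset.sum_Ico_succ_top h _

lemma cc_bot (cp k : ℕ → ℕ) {i r : ℕ} (h : r ≤ i) :
    cc cp k i r = cp r * k r + cc cp k i (r + 1) := by
  unfold cc
  exact Finset.sum_eq_sum_Ico_succ_bot (Nat.lt_succ_of_le h) _

lemma cc_zero (cp k : ℕ → ℕ) {i r : ℕ} (h : i < r) : cc cp k i r = 0 := by
  unfold cc
  rw [Finset.Ico_eq_empty (by omega)]
  rfl

/-- the inequality behind all gaps -/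
lemma gap_bound {c D K κ κ' X X' e δ δ' k k' cp g : ℝ} (hXX : X' ≤ X) (hX' : 0 ≤ X')
    (hδ : (c - D) * X ≤ δ) (hδ' : δ' ≤ (c + D) * X' + e) (hk0 : 0 ≤ k)
    (hk : k ≤ κ * D * X + 1) (hk' : κ' * D * X' ≤ k') (hcp : cp ≤ K) (hK : 0 ≤ K)
    (hD0 : 0 ≤ D) (hκ' : (1 + K) * κ + 3 ≤ κ') (hc : D + (1 + K) * κ * D ≤ c)
    (hD : K + 1 + e + g ≤ D * X') : g ≤ δ - δ' - (1 + cp) * k + k' := by
  have h1 : (1 + cp) * k ≤ (1 + K) * (κ * D * X + 1) := by
    calc (1 + cp) * k ≤ (1 + K) * k := by nlinarith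
      _ ≤ (1 + K) * (κ * D * X + 1) := by
          exact mul_le_mul_of_nonneg_left hk (by linarith)
  have h2 : (c - D - (1 + K) * κ * D) * X' ≤ (c - D - (1 + K) * κ * D) * X :=
    mul_le_mul_of_nonneg_left hXX (by linarith)
  have h3 : ((1 + K) * κ + 3) * (D * X') ≤ κ' * (D * X') :=
    mul_le_mul_of_nonneg_right hκ' (mul_nonneg hD0 hX')
  nlinarith [h1, h2, h3]

lemma last_bound {c D K κ X δ k cp g : ℝ} (hX : 0 ≤ X)
    (hδ : (c - D) * X ≤ δ) (hk0 : 0 ≤ k)
    (hk : k ≤ κ * D * X + 1) (hcp : cp ≤ K) (hK : 0 ≤ K)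
    (hc : 2 * (D + (1 + K) * κ * D) ≤ c)
    (hg : 2 * (K + 1 + g) ≤ c * X) : g ≤ δ - (1 + cp) * k := by
  have h1 : (1 + cp) * k ≤ (1 + K) * (κ * D * X + 1) := by
    calc (1 + cp) * k ≤ (1 + K) * k := by nlinarith
      _ ≤ (1 + K) * (κ * D * X + 1) := by
          exact mul_le_mul_of_nonneg_left hk (by linarith)
  have h2 : (2 * (D + (1 + K) * κ * D)) * X ≤ c * X := mul_le_mul_of_nonneg_right hc hX
  nlinarith [h1, h2]

/-- the coefficients `κ_i = 4 (K + 2)^i` -/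
def kap (K : ℕ) (i : ℕ) : ℝ := if i ≤ 1 then 0 else 4 * ((K : ℝ) + 2) ^ i

lemma kap_nonneg (K i : ℕ) : 0 ≤ kap K i := by
  unfold kap
  split_ifs
  · exact le_rfl
  · positivity

lemma kap_step (K : ℕ) {i : ℕ} (hi : 1 ≤ i) :
    (1 + (K : ℝ)) * kap K i + 3 ≤ kap K (i + 1) := by
  have hK : (0 : ℝ) ≤ K := Nat.cast_nonneg K
  have h1 : (1 : ℝ) ≤ ((K : ℝ) + 2) ^ i := one_le_pow₀ (by linarith)
  unfold kap
  rw [if_neg (by omega : ¬ (i + 1 ≤ 1)), pow_succ]
  split_ifs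
  · nlinarith
  · nlinarith

lemma kap_le (K : ℕ) {i j : ℕ} (hij : i ≤ j) : kap K i ≤ 4 * ((K : ℝ) + 2) ^ j := by
  have hK : (0 : ℝ) ≤ K := Nat.cast_nonneg K
  unfold kap
  split_ifs
  · positivity
  · exact mul_le_mul_of_nonneg_left (pow_le_pow_right₀ (by linarith) hij) (by norm_num)

/-- The decomposition `lam = μ0 + ν + Σ k_i w_i`. -/
theorem exists_nu {H K g : ℕ} {c D e T : ℝ} (hH : 1 ≤ H) (lam μ cp : ℕ → ℕ) (x : ℕ → ℝ)
    (hlam : ∀ r, 1 ≤ r → lam (r + 1) ≤ lam r) (hμ : ∀ r, H < r → μ r = 0)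
    (hcp : ∀ r, cp r ≤ K) (hx : ∀ r, 1 ≤ r → r ≤ H → 0 < x r)
    (hmono : ∀ r, 1 ≤ r → r + 1 ≤ H → x r ≤ x (r + 1))
    (hlo : ∀ r, 1 ≤ r → r ≤ H → (c - D) / x r ≤ (lam r : ℝ) - μ r)
    (hup : ∀ r, 2 ≤ r → r ≤ H → (lam r : ℝ) - μ r ≤ (c + D) / x r + e)
    (hD0 : 0 ≤ D) (he : 0 ≤ e) (hT0 : (lam (H + 1) : ℝ) ≤ T)
    (hc : 2 * (D + (1 + K) * (4 * ((K : ℝ) + 2) ^ H) * D) ≤ c)
    (hD : (K + 1 + e + g) * x H ≤ D)
    (hT : 2 * (K + 1 + g + T) * x H ≤ c) :
    ∃ k ν : ℕ → ℕ, (∀ r, ¬ (2 ≤ r ∧ r ≤ H) → k r = 0) ∧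
      (∀ r, 2 ≤ r → r ≤ H → (k r : ℝ) ≤ 4 * ((K : ℝ) + 2) ^ H * D / x r + 1) ∧
      (∀ r, 1 ≤ r → μ r + ν r + (k r + cc cp k H r) = lam r) ∧
      (∀ r, 1 ≤ r → ν (r + 1) ≤ ν r) ∧ ν 2 + g ≤ ν 1 := by
  classical
  have hKr : (0 : ℝ) ≤ K := Nat.cast_nonneg K
  have hxm : ∀ r s, 1 ≤ r → r ≤ s → s ≤ H → x r ≤ x s := by
    intro r s hr hrs hs
    induction s, hrs using Nat.le_induction with
    | base => exact le_rfl
    | succ s hrs ih => exact (ih (by omega)).trans (hmono s (by omega) hs)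
  set k : ℕ → ℕ := fun r => if 2 ≤ r ∧ r ≤ H then ⌈kap K r * D / x r⌉₊ else 0 with hkdef
  have hk0 : ∀ r, ¬ (2 ≤ r ∧ r ≤ H) → k r = 0 := fun r hr => by rw [hkdef]; exact if_neg hr
  have hkup : ∀ r, 1 ≤ r → r ≤ H → (k r : ℝ) ≤ kap K r * D * (x r)⁻¹ + 1 := by
    intro r h1 h2
    have h3 : 0 ≤ kap K r * D / x r := div_nonneg (mul_nonneg (kap_nonneg K r) hD0) (hx r h1 h2).le
    rw [← div_eq_mul_inv]
    by_cases h4 : 2 ≤ r ∧ r ≤ H
    · have h5 : k r = ⌈kap K r * D / x r⌉₊ := by rw [hkdef]; exact if_pos h4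
      rw [h5]
      exact (Nat.ceil_lt_add_one h3).le
    · rw [hk0 r h4, Nat.cast_zero]
      linarith
  have hklo : ∀ r, 2 ≤ r → r ≤ H → kap K r * D * (x r)⁻¹ ≤ (k r : ℝ) := by
    intro r h1 h2
    have h5 : k r = ⌈kap K r * D / x r⌉₊ := by rw [hkdef]; exact if_pos ⟨h1, h2⟩
    rw [h5, ← div_eq_mul_inv]
    exact Nat.le_ceil _
  -- integer remainder
  set νZ : ℕ → ℤ := fun r => (lam r : ℤ) - μ r - (k r + cc cp k H r : ℕ) with hνdef
  have hgap : ∀ r, 1 ≤ r → r ≤ H → νZ (r + 1) + g ≤ νZ r := by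
    intro r hr hrH
    rcases Nat.lt_or_ge r H with hlt | hge
    · -- inner gap
      have hb := cc_bot cp k (i := H) (r := r) hrH
      have hx1 := hx r hr hrH
      have hx2 := hx (r + 1) (by omega) (by omega)
      have hm := hmono r hr (by omega)
      have hXX : (x (r + 1))⁻¹ ≤ (x r)⁻¹ := inv_anti₀ hx1 hm
      have hX' : 0 ≤ (x (r + 1))⁻¹ := (inv_pos.2 hx2).le
      have h1 := hlo r hr hrH
      have h2 := hup (r + 1) (by omega) (by omega)
      rw [div_eq_mul_inv] at h1 h2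
      have hDX : (K : ℝ) + 1 + e + g ≤ D * (x (r + 1))⁻¹ := by
        rw [← div_eq_mul_inv, le_div_iff₀ hx2]
        refine le_trans (mul_le_mul_of_nonneg_left (hxm (r + 1) H (by omega) (by omega) le_rfl) ?_) hD
        have : (0 : ℝ) ≤ g := Nat.cast_nonneg g
        linarith
      have hcc : D + (1 + (K : ℝ)) * kap K r * D ≤ c := by
        have h3 := kap_le K hrH
        have h4 : (1 + (K : ℝ)) * kap K r * D ≤ (1 + K) * (4 * ((K : ℝ) + 2) ^ H) * D :=
          mul_le_mul_of_nonneg_right (mul_le_mul_of_nonneg_left h3 (by linarith)) hD0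
        have h5 : 0 ≤ (1 + (K : ℝ)) * (4 * ((K : ℝ) + 2) ^ H) * D := by positivity
        linarith
      have key := gap_bound (g := (g : ℝ)) (cp := (cp r : ℝ)) hXX hX' h1 h2
        (Nat.cast_nonneg (k r)) (hkup r hr hrH) (hklo (r + 1) (by omega) (by omega))
        (by exact_mod_cast hcp r) hKr hD0 (kap_step K hr) hcc hDX
      have key' : (νZ (r + 1) : ℝ) + g ≤ νZ r := by
        rw [hνdef]
        push_cast
        rw [hb]
        push_cast
        nlinarith [key]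
      exact_mod_cast key'
    · -- the last heavy row
      have hrH' : r = H := le_antisymm hrH hge
      subst hrH'
      have hb := cc_bot cp k (i := r) (r := r) hrH
      have hz := cc_zero cp k (i := r) (r := r + 1) (by omega)
      have hx1 := hx r hr hrH
      have h1 := hlo r hr hrH
      rw [div_eq_mul_inv] at h1
      have hcc : 2 * (D + (1 + (K : ℝ)) * kap K r * D) ≤ c := by
        have h3 := kap_le K hrH
        have h4 : (1 + (K : ℝ)) * kap K r * D ≤ (1 + K) * (4 * ((K : ℝ) + 2) ^ r) * D :=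
          mul_le_mul_of_nonneg_right (mul_le_mul_of_nonneg_left h3 (by linarith)) hD0
        linarith
      have hTX : 2 * ((K : ℝ) + 1 + (g + T)) ≤ c * (x r)⁻¹ := by
        rw [← div_eq_mul_inv, le_div_iff₀ hx1]
        linarith [hT]
      have key := last_bound (g := (g : ℝ) + T) (cp := (cp r : ℝ)) (inv_pos.2 hx1).le h1
        (Nat.cast_nonneg (k r)) (hkup r hr hrH)
        (by exact_mod_cast hcp r) hKr hcc hTX
      have hk1 : k (r + 1) = 0 := hk0 (r + 1) (by omega)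
      have hμ1 : μ (r + 1) = 0 := hμ (r + 1) (by omega)
      have key' : (νZ (r + 1) : ℝ) + g ≤ νZ r := by
        rw [hνdef]
        push_cast
        rw [hb, hz, hk1, hμ1]
        push_cast
        nlinarith [key, hT0]
      exact_mod_cast key'
  have hlight : ∀ r, H < r → νZ r = lam r := by
    intro r hr
    rw [hνdef]
    simp only
    rw [hk0 r (by omega), hμ r hr, cc_zero cp k hr]
    simp
  have hanti : ∀ r, 1 ≤ r → νZ (r + 1) ≤ νZ r := by
    intro r hr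
    rcases Nat.lt_or_ge H r with h | h
    · rw [hlight r h, hlight (r + 1) (by omega)]
      exact_mod_cast hlam r hr
    · have := hgap r hr h
      omega
  have hnn : ∀ r, 1 ≤ r → 0 ≤ νZ r := by
    intro r hr
    have h1 : ∀ t, 1 ≤ t → νZ (t + H) ≤ νZ t := by
      intro t ht
      have : ∀ s, νZ (t + s) ≤ νZ t := by
        intro s
        induction s with
        | zero => exact le_rfl
        | succ s ih => exact (hanti (t + s) (by omega)).trans ih
      exact this H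
    have h2 := h1 r hr
    rw [hlight (r + H) (by omega)] at h2
    exact le_trans (by positivity) h2
  refine ⟨k, fun r => (νZ r).toNat, hk0, ?_, ?_, ?_, ?_⟩
  · intro r h1 h2
    refine (hkup r (by omega) h2).trans ?_
    rw [← div_eq_mul_inv]
    have h3 := kap_le K h2
    have h4 : kap K r * D / x r ≤ 4 * ((K : ℝ) + 2) ^ H * D / x r :=
      div_le_div_of_nonneg_right (mul_le_mul_of_nonneg_right h3 hD0) (hx r (by omega) h2).le
    linarith
  · intro r hr
    have h1 := hnn r hr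
    have h2 : ((νZ r).toNat : ℤ) = νZ r := Int.toNat_of_nonneg h1
    zify
    rw [h2, hνdef]
    push_cast
    ring
  · intro r hr
    exact Int.toNat_le_toNat (hanti r hr)
  · have h1 := hgap 1 le_rfl hH
    have h2 := hnn 1 le_rfl
    have h3 := hnn 2 (by norm_num)
    have h4 : (νZ (1 + 1)) = νZ 2 := rfl
    rw [h4] at h1
    zify
    rw [Int.toNat_of_nonneg h2, Int.toNat_of_nonneg h3]
    exact h1

/-- closed form of the Pieri part in the rows `≥ 1` -/
lemma pieri_rows {n H : ℕ} (w : ℕ → Fin (n + 3) → ℕ) (cp k : ℕ → ℕ)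
    (hw : ∀ i, 2 ≤ i → i ≤ H → ∀ r : Fin (n + 3), 1 ≤ (r : ℕ) →
      w i r = if (r : ℕ) < i then cp i else if (r : ℕ) = i then cp i + 1 else 0)
    (hk : ∀ r, ¬ (2 ≤ r ∧ r ≤ H) → k r = 0) :
    ∀ i, 1 ≤ i → i ≤ H → ∀ r : Fin (n + 3), 1 ≤ (r : ℕ) →
      ∑ j ∈ Finset.Ico 2 (i + 1), k j * w j r =
        if (r : ℕ) ≤ i then k r + cc cp k i r else 0 := by
  intro i hi
  induction i, hi using Nat.le_induction with
  | base =>
    intro _ r hr
    rw [Finset.Ico_self, Finset.sum_empty]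
    split_ifs with h
    · have h1 : (r : ℕ) = 1 := by omega
      rw [h1, hk 1 (by omega)]
      unfold cc
      rw [Finset.sum_Ico_succ_top (by omega)]
      simp [hk 1 (by omega)]
    · rfl
  | succ i hi ih =>
    intro hiH r hr
    rw [Finset.sum_Ico_succ_top (by omega), ih (by omega) r hr, hw (i + 1) (by omega) hiH r hr]
    rcases Nat.lt_trichotomy (r : ℕ) (i + 1) with h | h | h
    · rw [if_pos (by omega), if_pos h, if_pos (by omega), cc_succ cp k (by omega)]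
      ring
    · rw [if_neg (by omega), if_neg (by omega), if_pos h, if_pos (by omega), h,
        cc_succ cp k le_rfl, cc_zero cp k (Nat.lt_succ_self i)]
      ring
    · rw [if_neg (by omega), if_neg (by omega), if_neg (by omega), if_neg (by omega)]
      simp

/-- The chain. -/
theorem chain {n a b b0 W U H K Bm Vn : ℕ} {c D e T P0 : ℝ} (ha : 1 ≤ a)
    (G : ℕ → (Fin (n + 3) → ℕ) → ℝ) (hG : ∀ b' μ, 0 ≤ G b' μ)
    (S2 : ∀ (b' B : ℕ) (μ ν : Fin (n + 3) → ℕ), ∑ i, ν i = a * B →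
      ν 1 + B + 4 * (n + 3) ^ 2 * a ≤ ν 0 → ν 2 + (n + 3) ^ 3 + 3 ≤ ν 1 →
      (∀ i j : Fin (n + 3), 1 ≤ i → i ≤ j → ν j ≤ ν i) → G b' μ ≤ G (b' + B) (μ + ν))
    (w : ℕ → Fin (n + 3) → ℕ) (Bw cp : ℕ → ℕ)
    (hw : ∀ i, 2 ≤ i → i ≤ H → ∀ r : Fin (n + 3), 1 ≤ (r : ℕ) →
      w i r = if (r : ℕ) < i then cp i else if (r : ℕ) = i then cp i + 1 else 0)
    (hwsum : ∀ i, 2 ≤ i → i ≤ H → ∑ r, w i r = a * Bw i)
    (hcp : ∀ i, cp i ≤ K) (hBw : ∀ i, 2 ≤ i → i ≤ H → 1 ≤ Bw i ∧ Bw i ≤ Bm)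
    (hP0 : 1 ≤ P0)
    (S1 : ∀ (i : ℕ) (hi : i + 1 < n + 3), 1 ≤ i → i + 1 ≤ H →
      ∀ (b' : ℕ) (μ : Fin (n + 3) → ℕ) (k : ℕ),
      (∀ r s : Fin (n + 3), 1 ≤ r → r ≤ s → μ s ≤ μ r) →
      k + μ ⟨i + 1, hi⟩ ≤ μ ⟨i, (Nat.lt_succ_self i).trans hi⟩ → k ≤ b →
      G b' μ ≤ P0 * G (b' + k * Bw (i + 1)) (μ + k • w (i + 1)))
    (hH1 : 1 ≤ H) (hHn : H ≤ n + 2)
    (lam μ0 : Fin (n + 3) → ℕ) (hlsum : ∑ i, lam i = a * b) (hμsum : ∑ i, μ0 i = a * b0)
    (hlam : ∀ r s : Fin (n + 3), 1 ≤ r → r ≤ s → lam s ≤ lam r)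
    (hμa : ∀ r s : Fin (n + 3), 1 ≤ r → r ≤ s → μ0 s ≤ μ0 r)
    (hμl : ∀ r : Fin (n + 3), H < (r : ℕ) → μ0 r = 0)
    (x : ℕ → ℝ) (hx : ∀ r, 1 ≤ r → r ≤ H → 0 < x r)
    (hmono : ∀ r, 1 ≤ r → r + 1 ≤ H → x r ≤ x (r + 1))
    (hlo : ∀ r : Fin (n + 3), 1 ≤ (r : ℕ) → (r : ℕ) ≤ H → (c - D) / x r ≤ (lam r : ℝ) - μ0 r)
    (hup : ∀ r : Fin (n + 3), 2 ≤ (r : ℕ) → (r : ℕ) ≤ H →
      (lam r : ℝ) - μ0 r ≤ (c + D) / x r + e)
    (hD0 : 0 ≤ D) (he : 0 ≤ e) (hT0 : 0 ≤ T)
    (hTl : ∀ r : Fin (n + 3), H < (r : ℕ) → (lam r : ℝ) ≤ T)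
    (hc : 2 * (D + (1 + K) * (4 * ((K : ℝ) + 2) ^ H) * D) ≤ c)
    (hD : (K + 1 + e + ((n : ℝ) + 3) ^ 3 + 3) * x H ≤ D)
    (hT : 2 * (K + 1 + ((n : ℝ) + 3) ^ 3 + 3 + T) * x H ≤ c)
    (hU : lam 1 ≤ μ0 1 + U) (hW : (n + 3) * U + 4 * (n + 3) ^ 2 * a + W ≤ a * W)
    (hV : ∀ i, 2 ≤ i → i ≤ H →
      ((n + 2 : ℕ) : ℝ) * (Bm * (4 * ((K : ℝ) + 2) ^ H * D / x i + 1)) ≤ Vn)
    (hb : b0 + W + Vn ≤ b) :
    G b0 μ0 ≤ P0 ^ (n + 2) * G b lam := by
  classical
  set lN : ℕ → ℕ := fun r => if h : r < n + 3 then lam ⟨r, h⟩ else 0 with hlN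
  set mN : ℕ → ℕ := fun r => if h : r < n + 3 then μ0 ⟨r, h⟩ else 0 with hmN
  have hl' : ∀ r (h : r < n + 3), lN r = lam ⟨r, h⟩ := fun r h => by rw [hlN]; exact dif_pos h
  have hm' : ∀ r (h : r < n + 3), mN r = μ0 ⟨r, h⟩ := fun r h => by rw [hmN]; exact dif_pos h
  have hlv : ∀ r : Fin (n + 3), lN r = lam r := fun r => hl' r r.isLt
  have hmv : ∀ r : Fin (n + 3), mN r = μ0 r := fun r => hm' r r.isLt
  have hone : ∀ r : Fin (n + 3), 1 ≤ (r : ℕ) → (1 : Fin (n + 3)) ≤ r := fun r h => by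
    rw [Fin.le_def]; simpa using h
  have hone' : ∀ r : Fin (n + 3), (1 : Fin (n + 3)) ≤ r → 1 ≤ (r : ℕ) := fun r h => by
    rw [Fin.le_def] at h; simpa using h
  have hlanti : ∀ r, 1 ≤ r → lN (r + 1) ≤ lN r := by
    intro r hr
    by_cases h : r + 1 < n + 3
    · rw [hl' _ h, hl' r (by omega)]
      exact hlam _ _ (hone _ hr) (by rw [Fin.le_def]; simp)
    · have : lN (r + 1) = 0 := by rw [hlN]; exact dif_neg h
      omega
  have hml : ∀ r, H < r → mN r = 0 := by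
    intro r hr
    by_cases h : r < n + 3
    · rw [hm' r h]; exact hμl ⟨r, h⟩ hr
    · rw [hmN]; exact dif_neg h
  have hTl' : (lN (H + 1) : ℝ) ≤ T := by
    by_cases h : H + 1 < n + 3
    · rw [hl' _ h]; exact hTl ⟨H + 1, h⟩ (Nat.lt_succ_self H)
    · have : lN (H + 1) = 0 := by rw [hlN]; exact dif_neg h
      rw [this, Nat.cast_zero]; exact hT0
  obtain ⟨k, ν, hk0, hkup, hdec, hνa, hν12⟩ := exists_nu (H := H) (K := K)
    (g := (n + 3) ^ 3 + 3) (c := c) (D := D) (e := e) (T := T) hH1 lN mN cp x hlanti hml hcp hx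
    hmono
    (fun r h1 h2 => by
      rw [hl' r (by omega), hm' r (by omega)]; exact hlo ⟨r, by omega⟩ h1 h2)
    (fun r h1 h2 => by
      rw [hl' r (by omega), hm' r (by omega)]; exact hup ⟨r, by omega⟩ h1 h2)
    hD0 he hTl' hc (by push_cast; linarith [hD]) (by push_cast; linarith [hT])
  -- the number of letters
  set VV : ℕ := ∑ j ∈ Finset.Ico 2 (H + 1), k j * Bw j with hVV
  have hVle : VV ≤ Vn := by
    have h1 : ∀ j ∈ Finset.Ico 2 (H + 1), (n + 2) * (k j * Bw j) ≤ Vn := by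
      intro j hj
      rw [Finset.mem_Ico] at hj
      have h2 := hV j hj.1 (by omega)
      have h3 := hkup j hj.1 (by omega)
      have h4 : (Bw j : ℝ) ≤ Bm := by exact_mod_cast (hBw j hj.1 (by omega)).2
      have h5 : ((k j * Bw j : ℕ) : ℝ) ≤ Bm * (4 * ((K : ℝ) + 2) ^ H * D / x j + 1) := by
        push_cast
        rw [mul_comm]
        exact mul_le_mul h4 h3 (Nat.cast_nonneg _) (Nat.cast_nonneg _)
      have h6 : (((n + 2) * (k j * Bw j) : ℕ) : ℝ) ≤ Vn := by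
        rw [Nat.cast_mul]
        exact (mul_le_mul_of_nonneg_left h5 (Nat.cast_nonneg _)).trans h2
      exact_mod_cast h6
    have h2 : (n + 2) * VV ≤ (n + 2) * Vn := by
      rw [hVV, Finset.mul_sum]
      refine (Finset.sum_le_card_nsmul _ _ _ h1).trans ?_
      rw [Nat.card_Ico, smul_eq_mul]
      exact Nat.mul_le_mul_right _ (by omega)
    exact Nat.le_of_mul_le_mul_left h2 (by omega)
  obtain ⟨t, ht⟩ : ∃ t, b = b0 + (W + t) + VV := ⟨b - b0 - W - VV, by omega⟩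
  set B' := W + t with hB'
  -- the first row of `ν`
  set νs : ℕ := ∑ i : Fin (n + 2), ν ((i : ℕ) + 1) with hνs
  have hνle : ∀ r, 1 ≤ r → ν r ≤ ν 1 := by
    intro r hr
    induction r, hr using Nat.le_induction with
    | base => exact le_rfl
    | succ r hr ih => exact (hνa r hr).trans ih
  have hν1U : ν 1 ≤ U := by
    have h1 := hdec 1 le_rfl
    have h2 : lN 1 = lam 1 := by rw [hl' 1 (by omega)]; congr 1
    have h3 : mN 1 = μ0 1 := by rw [hm' 1 (by omega)]; congr 1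
    rw [h2, h3] at h1
    omega
  have hνsle : νs ≤ (n + 2) * U := by
    rw [hνs]
    refine (Finset.sum_le_card_nsmul _ _ U fun i _ => (hνle _ (by omega)).trans hν1U).trans ?_
    rw [Finset.card_univ, Fintype.card_fin, smul_eq_mul]
  have haB : νs + (ν 1 + B' + 4 * (n + 3) ^ 2 * a) ≤ a * B' := by
    have h1 : t ≤ a * t := Nat.le_mul_of_pos_left t ha
    have h2 : a * B' = a * W + a * t := by rw [hB']; ring
    have h3 : (n + 3) * U = (n + 2) * U + U := by ring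
    omega
  set νF : Fin (n + 3) → ℕ := fun r => if (r : ℕ) = 0 then a * B' - νs else ν r with hνF
  have hνF0 : νF 0 = a * B' - νs := by rw [hνF]; simp
  have hνFr : ∀ r : Fin (n + 3), 1 ≤ (r : ℕ) → νF r = ν r := fun r hr => by
    rw [hνF]; simp only; rw [if_neg (by omega)]
  have hνFsum : ∑ i, νF i = a * B' := by
    rw [Fin.sum_univ_succ, hνF0]
    have h1 : ∑ i : Fin (n + 2), νF i.succ = νs := by
      rw [hνs]
      refine Finset.sum_congr rfl fun i _ => ?_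
      rw [hνFr _ (by rw [Fin.val_succ]; omega), Fin.val_succ]
    rw [h1]
    omega
  have hνF1 : νF 1 = ν 1 := by
    have := hνFr 1 (by simp)
    simpa using this
  have hνF2 : νF 2 = ν 2 := by
    have := hνFr 2 (by rw [Fin.val_two]; omega)
    rwa [Fin.val_two] at this
  have hνle2 : ∀ r s, 1 ≤ r → r ≤ s → ν s ≤ ν r := by
    intro r s hr hrs
    induction s, hrs using Nat.le_induction with
    | base => exact le_rfl
    | succ s hrs ih => exact (hνa s (by omega)).trans ih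
  have hνFa : ∀ i j : Fin (n + 3), 1 ≤ i → i ≤ j → νF j ≤ νF i := by
    intro i j h1 h2
    have h3 := hone' i h1
    have h4 : (i : ℕ) ≤ j := h2
    rw [hνFr i h3, hνFr j (by omega)]
    exact hνle2 _ _ h3 h4
  set S : ℕ → Fin (n + 3) → ℕ := fun i r =>
    μ0 r + νF r + ∑ j ∈ Finset.Ico 2 (i + 1), k j * w j r with hS
  have hSr : ∀ i, 1 ≤ i → i ≤ H → ∀ r : Fin (n + 3), 1 ≤ (r : ℕ) →
      S i r = mN r + ν r + if (r : ℕ) ≤ i then k r + cc cp k i r else 0 := by
    intro i h1 h2 r hr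
    rw [hS]
    simp only
    rw [pieri_rows w cp k hw hk0 i h1 h2 r hr, hνFr r hr, hmv]
  -- gaps of the intermediate shapes
  have hgapS : ∀ i, 1 ≤ i → i ≤ H → ∀ r : ℕ, 1 ≤ r → ∀ h : r + 1 < n + 3,
      S i ⟨r + 1, h⟩ + (if i = r then k (r + 1) else 0) ≤ S i ⟨r, by omega⟩ := by
    intro i h1 h2 r hr h
    have e1 := hSr i h1 h2 ⟨r, by omega⟩ hr
    have e2 := hSr i h1 h2 ⟨r + 1, h⟩ (by simp)
    simp only at e1 e2
    rw [e1, e2]
    have d1 := hdec r hr
    have d2 := hdec (r + 1) (by omega)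
    have d3 := hlanti r hr
    have d4 := hνa r hr
    have d5 : mN (r + 1) ≤ mN r := by
      rw [hm' r (by omega), hm' (r + 1) h]
      exact hμa _ _ (hone _ hr) (by rw [Fin.le_def]; simp)
    rcases Nat.lt_trichotomy i r with h3 | h3 | h3
    · rw [if_neg (by omega), if_neg (by omega), if_neg (by omega)]
      omega
    · subst h3
      rw [if_neg (by omega), if_pos rfl, if_pos le_rfl]
      have c1 : cc cp k i i = cp i * k i := by
        rw [cc_bot cp k le_rfl, cc_zero cp k (Nat.lt_succ_self i), add_zero]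
      rw [c1]
      rcases Nat.lt_or_ge i H with h4 | h4
      · rw [cc_bot cp k (by omega : i ≤ H)] at d1
        omega
      · have h5 : i = H := le_antisymm h2 h4
        have h6 : k (i + 1) = 0 := hk0 _ (by omega)
        rw [h6]
        omega
    · rw [if_pos (by omega), if_neg (by omega), if_pos (by omega)]
      rw [cc_bot cp k (by omega : r ≤ i)]
      rw [cc_bot cp k (by omega : r ≤ H)] at d1
      omega
  have hSanti : ∀ i, 1 ≤ i → i ≤ H → ∀ r s : Fin (n + 3), 1 ≤ r → r ≤ s → S i s ≤ S i r := by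
    intro i h1 h2 r s hr hrs
    have h3 := hone' r hr
    have h4 : (r : ℕ) ≤ s := hrs
    have key : ∀ m, (r : ℕ) ≤ m → ∀ h : m < n + 3, S i ⟨m, h⟩ ≤ S i r := by
      intro m hm
      induction m, hm using Nat.le_induction with
      | base => intro h; exact le_rfl
      | succ m hm ih =>
        intro h
        exact (le_trans (Nat.le_add_right _ _) (hgapS i h1 h2 m (by omega) h)).trans
          (ih (by omega))
    exact key s h4 s.isLt
  have hP0' : 0 ≤ P0 := by linarith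
  have main : ∀ i, 1 ≤ i → i ≤ H → G b0 μ0 ≤ P0 ^ (i - 1) *
      G (b0 + B' + ∑ j ∈ Finset.Ico 2 (i + 1), k j * Bw j) (S i) := by
    intro i hi
    induction i, hi using Nat.le_induction with
    | base =>
      intro _
      have h1 := S2 b0 B' μ0 νF hνFsum
        (by rw [hνF1, hνF0]; omega) (by rw [hνF1, hνF2]; omega) hνFa
      have h2 : S 1 = μ0 + νF := by
        funext r
        rw [hS]
        simp
      rw [h2]
      simpa using h1
    | succ i hi ih =>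
      intro hiH
      have h1 := ih (by omega)
      have h2 := S1 i (by omega) hi hiH (b0 + B' + ∑ j ∈ Finset.Ico 2 (i + 1), k j * Bw j) (S i)
        (k (i + 1)) (hSanti i hi (by omega))
        (by
          have h3 := hgapS i hi (by omega) i hi (by omega)
          rw [if_pos rfl] at h3
          omega)
        (by
          have h3 : k (i + 1) * Bw (i + 1) ≤ VV := by
            rw [hVV]
            exact Finset.single_le_sum (f := fun j => k j * Bw j) (fun j _ => Nat.zero_le _)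
              (Finset.mem_Ico.2 ⟨by omega, by omega⟩)
          have h4 : k (i + 1) ≤ k (i + 1) * Bw (i + 1) :=
            Nat.le_mul_of_pos_right _ (hBw (i + 1) (by omega) hiH).1
          omega)
      have h5 : S (i + 1) = S i + k (i + 1) • w (i + 1) := by
        funext r
        rw [hS]
        simp only [Pi.add_apply, Pi.smul_apply, smul_eq_mul]
        rw [Finset.sum_Ico_succ_top (by omega)]
        ring
      have h6 : b0 + B' + ∑ j ∈ Finset.Ico 2 (i + 1 + 1), k j * Bw j =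
          b0 + B' + ∑ j ∈ Finset.Ico 2 (i + 1), k j * Bw j + k (i + 1) * Bw (i + 1) := by
        rw [Finset.sum_Ico_succ_top (by omega)]
        ring
      rw [h5, h6]
      have h7 : P0 ^ (i + 1 - 1) = P0 ^ (i - 1) * P0 := by
        rw [← pow_succ]; congr 1; omega
      rw [h7, mul_assoc]
      exact h1.trans (mul_le_mul_of_nonneg_left h2 (pow_nonneg hP0' _))
  have hfin := main H hH1 le_rfl
  have hSH : S H = lam := by
    have h1 : ∀ r : Fin (n + 3), 1 ≤ (r : ℕ) → S H r = lam r := by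
      intro r hr
      rw [hSr H hH1 le_rfl r hr, ← hlv r]
      have h2 := hdec r hr
      split_ifs with h
      · exact h2
      · rw [hk0 r (by omega), cc_zero cp k (by omega)] at h2
        simpa using h2
    have h2 : ∑ r, S H r = a * b := by
      rw [hS]
      simp only
      rw [Finset.sum_add_distrib, Finset.sum_add_distrib, hμsum, hνFsum, Finset.sum_comm]
      have h3 : ∑ j ∈ Finset.Ico 2 (H + 1), ∑ r, k j * w j r = a * VV := by
        rw [hVV, Finset.mul_sum]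
        refine Finset.sum_congr rfl fun j hj => ?_
        rw [Finset.mem_Ico] at hj
        rw [← Finset.mul_sum, hwsum j hj.1 (by omega)]
        ring
      rw [h3, ht]
      ring
    funext r
    rcases Nat.eq_zero_or_pos (r : ℕ) with h | h
    · have hr0 : r = 0 := Fin.ext h
      rw [hr0]
      rw [Fin.sum_univ_succ] at h2 hlsum
      have h3 : ∑ i : Fin (n + 2), S H i.succ = ∑ i : Fin (n + 2), lam i.succ :=
        Finset.sum_congr rfl fun i _ => h1 _ (by rw [Fin.val_succ]; omega)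
      rw [h3] at h2
      omega
    · exact h1 r h
  rw [hSH] at hfin
  have hbb : b0 + B' + ∑ j ∈ Finset.Ico 2 (H + 1), k j * Bw j = b := by
    rw [ht]
  rw [hbb] at hfin
  refine hfin.trans (mul_le_mul_of_nonneg_right (pow_le_pow_right₀ hP0 (by omega)) (hG _ _))

end Vale.Agent.P181.Z.H699
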